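import Mathlib
import Vale.Agent.P116.KF.H80.EndSpec
import Vale.Agent.P116.KF.H80.A3

/-!
# ENDP-1: all but countably many ends are almost surely points
-/

open Set Filter Topology Metric Bornology MeasureTheory

namespace Vale.Agent.P116.EndP

open H906 PBC Slow KF G

namespace E1

lemma volume_cb (c : ℂ) {s : ℝ} (hs : 0 ≤ s) :
    volume (closedBall c s) = ENNReal.ofReal (Real.pi * s ^ 2) := by
  rw [Complex.volume_closedBall, mul_comm Real.pi, ENNReal.ofReal_mul (by positivity),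
    ENNReal.ofReal_pow hs]
  congr 1
  rw [← NNReal.coe_real_pi, ENNReal.ofReal_coe_nnreal]

/-- packing of disjoint disks -/
lemma sum_sq_le {ι : Type*} {J : Finset ι} {c : ι → ℂ} {r : ι → ℝ} {M : ℝ} (hM0 : 0 ≤ M)
    (hr : ∀ i ∈ J, 0 ≤ r i) (hsub : ∀ i ∈ J, closedBall (c i) (r i) ⊆ closedBall 0 M)
    (hd : ∀ i ∈ J, ∀ j ∈ J, i ≠ j → Disjoint (closedBall (c i) (r i)) (closedBall (c j) (r j))) :
    ∑ i ∈ J, r i ^ 2 ≤ M ^ 2 := by
  have h1 : ∑ i ∈ J, volume (closedBall (c i) (r i)) ≤ volume (closedBall (0:ℂ) M) := by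
    rw [← measure_biUnion_finset (fun i hi j hj hne => hd i hi j hj hne)
      (fun i _ => measurableSet_closedBall)]
    exact measure_mono (iUnion₂_subset hsub)
  rw [volume_cb _ hM0, Finset.sum_congr rfl (fun i hi => volume_cb (c i) (hr i hi)),
    ← ENNReal.ofReal_sum_of_nonneg (fun i hi => by positivity),
    ENNReal.ofReal_le_ofReal_iff (by positivity), ← Finset.mul_sum] at h1
  exact le_of_mul_le_mul_left h1 Real.pi_pos

/-- the coordinates, clipped -/
noncomputable def cl (R : ℝ) (t : ℝ) : ℝ := max 0 (min 1 (t / (10 * R) + 1 / 2))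

lemma cl_nn (R t : ℝ) : 0 ≤ cl R t := le_max_left _ _

lemma cl_le (R t : ℝ) : cl R t ≤ 1 := max_le zero_le_one (min_le_left _ _)

lemma cl_cont (R : ℝ) : Continuous (cl R) := by
  unfold cl
  fun_prop

lemma cl_eq {R t : ℝ} (hR : 0 < R) (ht : |t| ≤ 5 * R) : cl R t = t / (10 * R) + 1 / 2 := by
  rw [abs_le] at ht
  have h1 : -(1/2) ≤ t / (10 * R) := by
    rw [le_div_iff₀ (by positivity)]
    linarith
  have h2 : t / (10 * R) ≤ 1 / 2 := by
    rw [div_le_iff₀ (by positivity)]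
    linarith
  rw [cl, min_eq_right (by linarith), max_eq_right (by linarith)]

/-- coordinate functions -/
structure Co (τ : ℂ → ℝ) : Prop where
  cont : Continuous τ
  le : ∀ w, |τ w| ≤ ‖w‖
  sub : ∀ w w', τ w - τ w' = τ (w - w')

lemma co_re : Co Complex.re := ⟨Complex.continuous_re, Complex.abs_re_le_norm, fun _ _ => rfl⟩

lemma co_im : Co Complex.im := ⟨Complex.continuous_im, Complex.abs_im_le_norm, fun _ _ => rfl⟩

variable {K : Set ℂ} {g : ℂ → ℂ} {R : ℝ} {τ : ℂ → ℝ}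

/-- near `K` the map is bounded -/
lemma norm_le (hR : 0 < R) (hRK : lev K 0 ⊆ closedBall 0 R) (hg : NU Kᶜ g) {n : ℕ} {x z : ℂ}
    (hz : z ∈ nd K n x) (hzK : z ∉ K) : ‖g z‖ ≤ 5 * R := by
  refine hg.norm_le hR (compl_subset_compl.2 ((subset_lev 0).trans hRK)) hzK ?_
  have := hRK (lev_anti (Nat.zero_le n) (nd_subset n x hz))
  rwa [mem_closedBall, dist_zero_right] at this

lemma diff_eq (hτ : Co τ) (hR : 0 < R) {w w' : ℂ} (hw : ‖w‖ ≤ 5 * R) (hw' : ‖w'‖ ≤ 5 * R) :
    cl R (τ w) - cl R (τ w') = τ (w - w') / (10 * R) := by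
  rw [cl_eq hR ((hτ.le w).trans hw), cl_eq hR ((hτ.le w').trans hw'), ← hτ.sub]
  ring

/-- upper bound for the oscillation at an end with a disk -/
lemma oe_le_disk (hτ : Co τ) (hR : 0 < R) (hRK : lev K 0 ⊆ closedBall 0 R) (hg : NU Kᶜ g)
    {x c : ℂ} {r : ℝ} (h : DiskAt K g x c r) :
    oe K (fun z => cl R (τ (g z))) x ≤ r / (5 * R) := by
  refine le_of_forall_pos_le_add fun ε hε => ?_
  obtain ⟨n, hn⟩ := h.near (ε * (5 * R)) (by positivity)
  refine (oe_le x n).trans ?_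
  have hr := h.nonneg
  refine diam_le_of_forall_dist_le (by positivity) ?_
  rintro _ ⟨z, ⟨hz, hzK⟩, rfl⟩ _ ⟨z', ⟨hz', hzK'⟩, rfl⟩
  have h1 := hn z hz hzK
  have h2 := hn z' hz' hzK'
  have h3 : ‖g z - g z'‖ ≤ 2 * (r + ε * (5 * R)) := by
    have := norm_sub_le_norm_sub_add_norm_sub (g z) c (g z')
    rw [norm_sub_rev c] at this
    linarith
  rw [Real.dist_eq, diff_eq hτ hR (norm_le hR hRK hg hz hzK) (norm_le hR hRK hg hz' hzK'),
    abs_div, abs_of_pos (by positivity : (0:ℝ) < 10 * R), div_le_iff₀ (by positivity)]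
  refine ((hτ.le _).trans h3).trans (le_of_eq ?_)
  field_simp
  ring

/-- if both oscillations vanish the images shrink -/
lemma shrink (hR : 0 < R) (hRK : lev K 0 ⊆ closedBall 0 R) (hg : NU Kᶜ g) {x : ℂ}
    (h1 : oe K (fun z => cl R (g z).re) x = 0) (h2 : oe K (fun z => cl R (g z).im) x = 0)
    {ε : ℝ} (hε : 0 < ε) :
    ∃ n, ∀ z ∈ nd K n x, z ∉ K → ∀ z' ∈ nd K n x, z' ∉ K → ‖g z - g z'‖ ≤ ε := by
  have key : ∀ {τ : ℂ → ℝ}, Co τ → oe K (fun z => cl R (τ (g z))) x = 0 →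
      ∃ N, ∀ n ≥ N, ∀ z ∈ nd K n x, z ∉ K → ∀ z' ∈ nd K n x, z' ∉ K → |τ (g z - g z')| ≤ ε / 2 := by
    intro τ hτ h
    have h3 := oe_tendsto (K := K) (u := fun z => cl R (τ (g z))) (fun _ => cl_nn _ _)
      (fun _ => cl_le _ _) x
    rw [h] at h3
    have h4 : ∀ᶠ n in atTop, diam ((fun z => cl R (τ (g z))) '' (nd K n x \ K)) <
        ε / 2 / (10 * R) := h3.eventually_lt_const (by positivity)
    obtain ⟨N, hN⟩ := eventually_atTop.1 h4
    refine ⟨N, fun n hn z hz hzK z' hz' hzK' => ?_⟩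
    have h5 := dist_le_diam_of_mem (bdd_image (u := fun z => cl R (τ (g z))) (fun _ => cl_nn _ _)
      (fun _ => cl_le _ _) (nd K n x \ K)) ⟨z, ⟨hz, hzK⟩, rfl⟩ ⟨z', ⟨hz', hzK'⟩, rfl⟩
    dsimp only at h5
    rw [Real.dist_eq, diff_eq hτ hR (norm_le hR hRK hg hz hzK) (norm_le hR hRK hg hz' hzK'),
      abs_div, abs_of_pos (by positivity : (0:ℝ) < 10 * R)] at h5
    have h6 := h5.trans (hN n hn).le
    rwa [div_le_div_iff_of_pos_right (by positivity)] at h6
  obtain ⟨N, hN⟩ := key co_re h1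
  obtain ⟨N', hN'⟩ := key co_im h2
  refine ⟨max N N', fun z hz hzK z' hz' hzK' => ?_⟩
  have h3 := hN _ (le_max_left _ _) z hz hzK z' hz' hzK'
  have h4 := hN' _ (le_max_right _ _) z hz hzK z' hz' hzK'
  have h5 := Complex.norm_le_abs_re_add_abs_im (g z - g z')
  linarith

/-- if the images shrink then the disk is a point -/
lemma pt_of_shrink {𝔊 : Ultrafilter Str} (hK : IsCompact K) (hf : Full K)
    (hG : Fine K (𝔊 : Filter Str))
    (hg : TendstoLocallyUniformlyOn (kF fk) g (𝔊 : Filter Str) Kᶜ) {x : ℂ} (hx : x ∈ K)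
    (hgood : GoodAt fk K (𝔊 : Filter Str) x)
    (hs : ∀ ε > 0, ∃ n, ∀ z ∈ nd K n x, z ∉ K → ∀ z' ∈ nd K n x, z' ∉ K → ‖g z - g z'‖ ≤ ε) :
    ∃ a, DiskAt K g x a 0 := by
  obtain ⟨c, r, hD, hsh, -⟩ := exists_disk hK hf hG hg hx hgood
  rcases hD.nonneg.eq_or_lt with hr | hr
  · exact ⟨c, hr ▸ hD⟩
  exfalso
  obtain ⟨n, hn⟩ := hs (r / 4) (by positivity)
  have hcV : IsCompact (nd K n x) := isCompact_nd hK n x
  have hFV : frontier (nd K n x) ⊆ nd K n x := hcV.isClosed.frontier_subset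
  have hFK : Disjoint (frontier (nd K n x)) K := frontier_nd_disjoint n x
  have hFc : IsCompact (frontier (nd K n x)) := hcV.of_isClosed_subset isClosed_frontier hFV
  have hFne : (frontier (nd K n x)).Nonempty := by
    rw [nonempty_iff_ne_empty]
    intro h
    rcases frontier_eq_empty_iff.1 h with h | h
    · have := mem_nd hx n
      rw [h] at this
      exact this
    · exact NormedSpace.unbounded_univ ℝ ℂ (h ▸ hcV.isBounded)
  obtain ⟨z₀, hz₀⟩ := hFne
  have hu : TendstoUniformlyOn (kF fk) g (𝔊 : Filter Str) (frontier (nd K n x)) := by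
    rw [← tendstoLocallyUniformlyOn_iff_tendstoUniformlyOn_of_compact hFc]
    exact hg.mono fun z hz => disjoint_left.1 hFK hz
  have h1 := Metric.tendstoUniformlyOn_iff.1 hu (r / 8) (by positivity)
  have h2 := hG.disj hK hf hFc hFK
  have h3 := hsh (c + r) (by
    rw [mem_closedBall, dist_eq_norm, add_sub_cancel_left, Complex.norm_real,
      Real.norm_of_nonneg hr.le]) n
  have h4 := hsh (c - r) (by
    rw [mem_closedBall, dist_eq_norm, sub_sub_cancel_left, norm_neg, Complex.norm_real,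
      Real.norm_of_nonneg hr.le]) n
  obtain ⟨S, ⟨⟨h1, h2⟩, h3⟩, h4⟩ := (((h1.and h2).and h3).and h4).exists
  have h5 : kT fk S (nd K n x) ⊆ closedBall (g z₀) (r / 2) := by
    refine (kmap fk S).Tm_subset_closedBall S.2 hcV.isBounded (by positivity) ?_
    rintro w (⟨z, ⟨hzF, hz⟩, rfl⟩ | hw)
    · have h6 := h1 z hzF
      have h7 := hn z (hFV hzF) (disjoint_left.1 hFK hzF) z₀ (hFV hz₀) (disjoint_left.1 hFK hz₀)
      rw [mem_closedBall]
      rw [← dist_eq_norm] at h7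
      have h8 := dist_triangle (kF fk S z) (g z) (g z₀)
      rw [dist_comm (kF fk S z) (g z)] at h8
      linarith
    · obtain ⟨P, ⟨hP, z, hzF, hzP⟩, -⟩ := mem_iUnion₂.1 hw
      exact (disjoint_left.1 h2 hzF ⟨P, hP, hzP⟩).elim
  have h6 := h5 h3
  have h7 := h5 h4
  rw [mem_closedBall] at h6 h7
  have h8 := dist_triangle_right (c + r) (c - r) (g z₀)
  have h9 : dist (c + r) (c - r) = 2 * r := by
    rw [dist_eq_norm, show c + (r:ℂ) - (c - r) = ((2 * r : ℝ) : ℂ) by push_cast; ring,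
      Complex.norm_real, Real.norm_of_nonneg (by positivity)]
  linarith

section

variable {Par : Type} {B : Par → ℝ → Set (Set (Set ℂ))} {Ω : Type} [TopologicalSpace Ω]
  [MeasurableSpace Ω] {P : Measure Ω} {gg : Ω → ℂ → ℂ} {𝔉 : Ω → Ultrafilter Str}

lemma meas (h : FSt K B Ω P gg 𝔉) (hτ : Co τ) (x : ℂ) :
    Measurable fun ω => oe K (fun z => cl R (τ (gg ω z))) x := by
  have := h.cpt
  have := h.borel
  have := h.prob
  have h1 := meas_oe (Ω := Ω) (K := K) (G := gg) (p := fun _ => 0)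
    (χ := fun w => cl R (τ w)) h.cont measurable_const ((cl_cont R).comp hτ.cont)
    (fun _ => cl_nn _ _) (fun _ => cl_le _ _) x
  simpa only [sub_zero] using h1

lemma integrable_sq (h : FSt K B Ω P gg 𝔉) (hτ : Co τ) (x : ℂ) :
    Integrable (fun ω => oe K (fun z => cl R (τ (gg ω z))) x ^ 2) P := by
  have := h.prob
  refine Integrable.of_bound ((meas h hτ x).pow_const 2).aestronglyMeasurable 1
    (Eventually.of_forall fun ω => ?_)
  rw [Real.norm_of_nonneg (sq_nonneg _)]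
  exact pow_le_one₀ (oe_nonneg _ _ _) (oe_le_one (fun _ => cl_nn _ _) (fun _ => cl_le _ _) x)

/-- the sum of the squares -/
lemma sum_le (hK : IsCompact K) (hf : Full K) (h : FSt K B Ω P gg 𝔉) (hτ : Co τ) (hR : 0 < R)
    (hRK : lev K 0 ⊆ closedBall 0 R) {ι : Type*} (J : Finset ι) {x : ι → ℂ}
    (hx : ∀ i ∈ J, x i ∈ K) (hne : ∀ i ∈ J, ∀ j ∈ J, i ≠ j →
      connectedComponentIn K (x i) ≠ connectedComponentIn K (x j)) :
    ∑ i ∈ J, ∫ ω, oe K (fun z => cl R (τ (gg ω z))) (x i) ^ 2 ∂P ≤ 1 := by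
  have := h.prob
  rw [← integral_finsetSum _ fun i _ => integrable_sq h hτ (x i)]
  have h1 : ∀ᵐ ω ∂P, ∀ i ∈ J, GoodAt fk K (𝔉 ω : Filter Str) (x i) := by
    rw [Finset.eventually_all]
    exact fun i hi => h.good _ (hx i hi)
  have h2 : ∀ᵐ ω ∂P, ∑ i ∈ J, oe K (fun z => cl R (τ (gg ω z))) (x i) ^ 2 ≤ 1 := by
    filter_upwards [h1] with ω hω
    have h3 : ∀ i, ∃ c r, i ∈ J → DiskAt K (gg ω) (x i) c r := by
      intro i
      by_cases hi : i ∈ J
      · obtain ⟨c, r, hD, -⟩ := exists_disk hK hf (h.fine ω) (h.conv ω) (hx i hi) (hω i hi)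
        exact ⟨c, r, fun _ => hD⟩
      · exact ⟨0, 0, fun h => (hi h).elim⟩
    choose c r hD using h3
    have h4 : ∑ i ∈ J, r i ^ 2 ≤ (5 * R) ^ 2 := by
      refine sum_sq_le (c := c) (by positivity) (fun i hi => (hD i hi).nonneg) (fun i hi => ?_)
        fun i hi j hj hij => ?_
      · intro w hw
        rw [mem_closedBall, dist_zero_right]
        refine (h.nu ω).omitted hR (compl_subset_compl.2 ((subset_lev 0).trans hRK)) ?_
        intro z hz hzw
        exact (hD i hi).compl hw ⟨z, fun hzK => hz (hRK (subset_lev 0 hzK)), hzw⟩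
      · exact disk_disj hK hf (h.fine ω) (h.conv ω) (hx i hi) (hx j hj) (hne i hi j hj hij)
          (hω i hi) (hω j hj) (hD i hi) (hD j hj)
    have h5 : ∑ i ∈ J, oe K (fun z => cl R (τ (gg ω z))) (x i) ^ 2 ≤
        ∑ i ∈ J, (r i / (5 * R)) ^ 2 := Finset.sum_le_sum fun i hi =>
      pow_le_pow_left₀ (oe_nonneg _ _ _) (oe_le_disk hτ hR hRK (h.nu ω) (hD i hi)) 2
    refine h5.trans ?_
    simp only [div_pow]
    rw [← Finset.sum_div, div_le_one (by positivity)]
    exact h4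
  calc ∫ ω, ∑ i ∈ J, oe K (fun z => cl R (τ (gg ω z))) (x i) ^ 2 ∂P ≤ ∫ _ω, (1:ℝ) ∂P :=
        integral_mono_ae (integrable_finsetSum _ fun i _ => integrable_sq h hτ (x i))
          (integrable_const _) h2
    _ = 1 := by simp

/-- if the mean square of the oscillation vanishes then it vanishes almost surely -/
lemma ae_zero (h : FSt K B Ω P gg 𝔉) (hτ : Co τ) {x : ℂ}
    (h0 : ∫ ω, oe K (fun z => cl R (τ (gg ω z))) x ^ 2 ∂P = 0) :
    ∀ᵐ ω ∂P, oe K (fun z => cl R (τ (gg ω z))) x = 0 := by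
  have h1 := (integral_eq_zero_iff_of_nonneg (fun _ => sq_nonneg _) (integrable_sq h hτ x)).1 h0
  filter_upwards [h1] with ω hω
  exact pow_eq_zero_iff (two_ne_zero) |>.1 hω

/-- the points with vanishing mean squares -/
lemma ptA (hK : IsCompact K) (hf : Full K) (h : FSt K B Ω P gg 𝔉) (hR : 0 < R)
    (hRK : lev K 0 ⊆ closedBall 0 R) {x : ℂ} (hx : x ∈ K)
    (h1 : ∫ ω, oe K (fun z => cl R (gg ω z).re) x ^ 2 ∂P = 0)
    (h2 : ∫ ω, oe K (fun z => cl R (gg ω z).im) x ^ 2 ∂P = 0) : PtA K P gg x := by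
  filter_upwards [ae_zero h co_re h1, ae_zero h co_im h2, h.good x hx] with ω h3 h4 h5
  exact pt_of_shrink hK hf (h.fine ω) (h.conv ω) hx h5 fun ε hε =>
    shrink hR hRK (h.nu ω) h3 h4 hε

end

end E1

/-- **ENDP-1** -/
theorem endp1 : Endp1 := by
  intro K hK hf Par B Ω _ _ P g 𝔊 h
  have := h.prob
  obtain ⟨R, hR, hRK⟩ := lev_bdd hK 0
  set A : Set (Set ℂ) := {c ∈ comps K | ∃ x ∈ c, ¬ PtA K P g x} with hA
  have h1 : ∀ c : A, ∃ x ∈ c.1, ¬ PtA K P g x := fun c => c.2.2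
  choose x hxc hx using h1
  have hcK : ∀ c : A, x c ∈ K := by
    intro c
    obtain ⟨y, hy, hyc⟩ := c.2.1
    have := hxc c
    rw [← hyc] at this
    exact connectedComponentIn_subset _ _ this
  have hcc : ∀ c : A, connectedComponentIn K (x c) = c.1 := by
    intro c
    obtain ⟨y, hy, hyc⟩ := c.2.1
    have := hxc c
    rw [← hyc] at this
    rw [← hyc]
    exact (connectedComponentIn_eq this).symm
  set f : A → ℝ := fun c => ∫ ω, oe K (fun z => E1.cl R (g ω z).re) (x c) ^ 2 ∂P +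
    ∫ ω, oe K (fun z => E1.cl R (g ω z).im) (x c) ^ 2 ∂P with hfdef
  have h0 : ∀ c : A, 0 ≤ ∫ ω, oe K (fun z => E1.cl R (g ω z).re) (x c) ^ 2 ∂P :=
    fun c => integral_nonneg fun _ => sq_nonneg _
  have h0' : ∀ c : A, 0 ≤ ∫ ω, oe K (fun z => E1.cl R (g ω z).im) (x c) ^ 2 ∂P :=
    fun c => integral_nonneg fun _ => sq_nonneg _
  have hfn : 0 ≤ f := fun c => add_nonneg (h0 c) (h0' c)
  have hsum : Summable f := by
    refine summable_of_sum_le (c := 2) hfn fun J => ?_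
    rw [hfdef, Finset.sum_add_distrib]
    have hne : ∀ i ∈ J, ∀ j ∈ J, i ≠ j →
        connectedComponentIn K (x i) ≠ connectedComponentIn K (x j) := by
      intro i _ j _ hij heq
      rw [hcc, hcc] at heq
      exact hij (Subtype.ext heq)
    have h2 := E1.sum_le hK hf h E1.co_re hR hRK J (fun i _ => hcK i) hne
    have h3 := E1.sum_le hK hf h E1.co_im hR hRK J (fun i _ => hcK i) hne
    linarith
  have hsupp : Function.support f = univ := by
    rw [eq_univ_iff_forall]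
    intro c hc
    have h2 : f c = 0 := hc
    have h3 : ∫ ω, oe K (fun z => E1.cl R (g ω z).re) (x c) ^ 2 ∂P = 0 := by
      have := h0 c
      have := h0' c
      simp only [hfdef] at h2
      linarith
    have h4 : ∫ ω, oe K (fun z => E1.cl R (g ω z).im) (x c) ^ 2 ∂P = 0 := by
      have := h0 c
      have := h0' c
      simp only [hfdef] at h2
      linarith
    exact hx c (E1.ptA hK hf h hR hRK (hcK c) h3 h4)
  have hcount := hsum.countable_support
  rw [hsupp, countable_univ_iff] at hcount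
  exact hcount

end Vale.Agent.P116.EndP
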